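import Crest.Agent.N255.Wn.Re
import Crest.Agent.N255.Tp.Phi

/-!
# Row 255 (helper89): transport of chains, cochains, supports and walls along a homeomorphism
-/

set_option autoImplicit false
open Set

noncomputable section

namespace Crest.Agent.N255.Tr

open Tp Wn

variable {X Y : Type} [TopologicalSpace X] [TopologicalSpace Y] {n i j d : ℕ}

/-- pull back of any function of simplices -/
def pl {B : Type} (f : C(X, Y)) (a : Sx n Y → B) : Sx n X → B := fun σ => a (f.comp σ)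

theorem pl_apply {B : Type} (f : C(X, Y)) (a : Sx n Y → B) (σ : Sx n X) :
    pl f a σ = a (f.comp σ) := rfl

/-- the family of the simplices which are mapped into `P` -/
def cm (f : C(X, Y)) (P : Sb Y) : Sb X :=
  ⟨fun n => {σ | f.comp σ ∈ P.S n}, fun n σ i h => P.fc_mem n (f.comp σ) i h⟩

theorem mem_cm {f : C(X, Y)} {P : Sb Y} {σ : Sx n X} : σ ∈ (cm f P).S n ↔ f.comp σ ∈ P.S n := Iff.rfl

theorem sb_ext {P Q : Sb X} (h : ∀ n σ, σ ∈ P.S n ↔ σ ∈ Q.S n) : P = Q := by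
  obtain ⟨S, _⟩ := P
  obtain ⟨T, _⟩ := Q
  obtain rfl : S = T := funext fun n => Set.ext (h n)
  rfl

theorem range_comp_sub {f : C(X, Y)} {σ : Sx n X} {V : Set Y} :
    range (f.comp σ) ⊆ V ↔ range σ ⊆ f ⁻¹' V := by
  simp only [range_subset_iff, ContinuousMap.comp_apply, mem_preimage]

theorem cm_On (f : C(X, Y)) (V : Set Y) : cm f (On V) = On (f ⁻¹' V) :=
  sb_ext fun _ _ => range_comp_sub

theorem cm_inf (f : C(X, Y)) (P Q : Sb Y) : cm f (P.inf Q) = (cm f P).inf (cm f Q) := rfl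



/-- corresponding covers -/
structure Cv (f : C(X, Y)) (𝒰 : Set (Set X)) (𝒱 : Set (Set Y)) : Prop where
  im : ∀ U ∈ 𝒰, ∃ V ∈ 𝒱, U ⊆ f ⁻¹' V
  pre : ∀ V ∈ 𝒱, ∃ U ∈ 𝒰, f ⁻¹' V ⊆ U

theorem Cv.cm {f : C(X, Y)} {𝒰 : Set (Set X)} {𝒱 : Set (Set Y)} (h : Cv f 𝒰 𝒱) :
    cm f (Sm 𝒱) = Sm 𝒰 :=
  sb_ext fun _ _ => ⟨fun ⟨V, hV, hσ⟩ =>
      let ⟨U, hU, e⟩ := h.pre V hV; ⟨U, hU, (range_comp_sub.1 hσ).trans e⟩,
    fun ⟨U, hU, hσ⟩ => let ⟨V, hV, e⟩ := h.im U hU; ⟨V, hV, range_comp_sub.2 (hσ.trans e)⟩⟩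

section cont

variable {k : Type} [CommRing k] {A A' A'' : Type} [AddCommGroup A] [Module k A] [AddCommGroup A']
  [Module k A'] [AddCommGroup A''] [Module k A''] (f : C(X, Y))


theorem cob_pl (a : Co A n Y) : cob k (pl f a) = pl f (cob k a) := rfl

theorem ev_pl (a : Co A n Y) (c : Ch k n X) : ev k (pl f a) c = ev k a (push k f c) :=
  (ev_push f a c).symm



theorem push_cap' (a : Co k i Y) (c : Ch k n X) :
    push k f (cap' j (pl f a) c) = cap' j a (push k f c) :=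
  ch_ext' (S := (push k f).comp (cap' j (pl f a))) (T := (cap' j a).comp (push k f))
    (fun σ => by
      simp only [LinearMap.comp_apply, cap', ev_sg, push_sg, map_smul]; rfl) c

theorem res_pl (P : Sb Y) (a : Co A n Y) : (cm f P).res (pl f a) = pl f (P.res a) := rfl

theorem cut_pl (V : Set Y) : pl f (cut k V) = cut k (f ⁻¹' V) := by
  classical
  funext σ; exact if_congr range_comp_sub rfl rfl

theorem push_wall (V : Set Y) (z : Ch k (n + 1) X) :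
    push k f (wall (f ⁻¹' V) z) = wall V (push k f z) := by
  rw [wall, wall, ← cut_pl, cob_pl, push_cap']

variable {f} {P : Sb Y}

theorem pl_van {a : Co A n Y} (h : a ∈ P.van k A n) : pl f a ∈ (cm f P).van k A n :=
  fun _ hσ => h _ hσ

theorem pl_Z {a : Co A n Y} (h : a ∈ P.Z k A n) : pl f a ∈ (cm f P).Z k A n :=
  pl_van (k := k) (a := cob k a) h

theorem pl_Ex : ∀ {n} {a : Co A n Y}, a ∈ P.Ex k A n → pl f a ∈ (cm f P).Ex k A n
  | 0, _, h => pl_van h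
  | _ + 1, _, h => by
    obtain ⟨ψ, hψ⟩ := Sb.mem_Ex.1 h
    exact Sb.mem_Ex.2 ⟨pl f ψ, pl_van hψ⟩

theorem push_ch {c : Ch k n X} (h : c ∈ (cm f P).ch k n) : push k f c ∈ P.ch k n :=
  Sb.map_mem _ _ (fun σ hσ => by rw [push_sg]; exact Sb.sg_mem hσ) h

theorem push_B {c : Ch k n X} (h : c ∈ (cm f P).B k n) : push k f c ∈ P.B k n := by
  obtain ⟨b, hb, rfl⟩ := h
  rw [← bd_push]; exact Sb.bd_mem_B (push_ch hb)


theorem push_RN {U V : Set Y} {c : Ch k n X} (h : c ∈ RN k (f ⁻¹' U) (f ⁻¹' V) n) :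
    push k f c ∈ RN k U V n := by
  obtain ⟨a, ha, b, hb, rfl⟩ := Submodule.mem_sup.1 h
  rw [← cm_On] at ha hb
  rw [map_add]
  exact Submodule.add_mem_sup (push_B ha) (push_ch hb)

theorem push_Nul {U : Set Y} {c : Ch k n X} (h : c ∈ Nul k (f ⁻¹' U) n) :
    push k f c ∈ Nul k U n := by
  obtain ⟨b, hb⟩ := mem_Nul.1 h
  rw [← cm_On] at hb
  exact mem_Nul.2 ⟨push k f b, by rw [bd_push, ← map_sub]; exact push_ch hb⟩

end cont

section homeo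

variable (φ : X ≃ₜ Y)

/-- the homeomorphism as a continuous map -/
abbrev fo : C(X, Y) := ⟨φ, φ.continuous⟩

theorem fo_symm_comp (σ : Sx n X) : (fo φ.symm).comp ((fo φ).comp σ) = σ := by
  ext t; simp

theorem fo_comp_symm (τ : Sx n Y) : (fo φ).comp ((fo φ.symm).comp τ) = τ := fo_symm_comp φ.symm τ

theorem pl_pl {B : Type} (a : Sx n X → B) : pl (fo φ) (pl (fo φ.symm) a) = a :=
  funext fun σ => congrArg a (fo_symm_comp φ σ)

theorem pl_pl' {B : Type} (a : Sx n Y → B) : pl (fo φ.symm) (pl (fo φ) a) = a := pl_pl φ.symm a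

theorem cm_cm (P : Sb X) : cm (fo φ) (cm (fo φ.symm) P) = P :=
  sb_ext fun _ σ => by rw [mem_cm, mem_cm, fo_symm_comp]

theorem cm_cm' (P : Sb Y) : cm (fo φ.symm) (cm (fo φ) P) = P := cm_cm φ.symm P

theorem pre_pre (V : Set Y) : fo φ.symm ⁻¹' (fo φ ⁻¹' V) = V := by
  ext y; simp

theorem forall_sx {p : Sx n Y → Prop} : (∀ σ : Sx n X, p ((fo φ).comp σ)) ↔ ∀ τ, p τ :=
  ⟨fun h τ => fo_comp_symm φ τ ▸ h _, fun h _ => h _⟩

theorem forall_co {B : Type} {p : (Sx n X → B) → Prop} : (∀ a, p (pl (fo φ) a)) ↔ ∀ b, p b :=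
  ⟨fun h b => pl_pl φ b ▸ h _, fun h _ => h _⟩

theorem Cv.symm {φ : X ≃ₜ Y} {𝒰 : Set (Set X)} {𝒱 : Set (Set Y)} (h : Cv (fo φ) 𝒰 𝒱) :
    Cv (fo φ.symm) 𝒱 𝒰 where
  im V hV := let ⟨U, hU, e⟩ := h.pre V hV; ⟨U, hU, fun y hy => e (by simpa using hy)⟩
  pre U hU := let ⟨V, hV, e⟩ := h.im U hU; ⟨V, hV, fun y hy => by simpa using e hy⟩

variable (k : Type) [CommRing k] {A : Type} [AddCommGroup A] [Module k A]

theorem push_push' (c : Ch k n X) : push k (fo φ.symm) (push k (fo φ) c) = c :=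
  ch_ext' (S := (push k (fo φ.symm)).comp (push k (fo φ))) (T := LinearMap.id)
    (fun σ => by simp only [LinearMap.comp_apply, push_sg, fo_symm_comp, LinearMap.id_apply]) c

theorem push_push'' (c : Ch k n Y) : push k (fo φ) (push k (fo φ.symm) c) = c :=
  push_push' φ.symm k c

/-- pull back as an equivalence -/
def pe (A : Type) [AddCommGroup A] [Module k A] (n : ℕ) : Co A n Y ≃ₗ[k] Co A n X :=
  { pull k (fo φ) with
    invFun := pl (fo φ.symm)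
    left_inv := pl_pl' φ
    right_inv := pl_pl φ }



/-- pull back of chains -/
abbrev bc (c : Ch k n Y) : Ch k n X := push k (fo φ.symm) c

variable {k}

theorem ev_bc (a : Co A n Y) (c : Ch k n Y) : ev k (pl (fo φ) a) (bc φ k c) = ev k a c := by
  rw [ev_pl, push_push'']

theorem bd_bc (c : Ch k (n + 1) Y) : bd k (bc φ k c) = bc φ k (bd k c) := bd_push _ c



variable {P : Sb Y} {U V : Set Y}

theorem van_iff {a : Co A n Y} : pl (fo φ) a ∈ (cm (fo φ) P).van k A n ↔ a ∈ P.van k A n :=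
  ⟨fun h => by simpa only [pl_pl', cm_cm'] using pl_van (k := k) (f := fo φ.symm) h, pl_van⟩

theorem Z_iff {a : Co A n Y} : pl (fo φ) a ∈ (cm (fo φ) P).Z k A n ↔ a ∈ P.Z k A n :=
  van_iff φ (k := k) (a := cob k a)

theorem Ex_iff {a : Co A n Y} : pl (fo φ) a ∈ (cm (fo φ) P).Ex k A n ↔ a ∈ P.Ex k A n :=
  ⟨fun h => by simpa only [pl_pl', cm_cm'] using pl_Ex (f := fo φ.symm) h, pl_Ex⟩

theorem ch_iff {c : Ch k n Y} : bc φ k c ∈ (cm (fo φ) P).ch k n ↔ c ∈ P.ch k n :=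
  ⟨fun h => push_push'' φ k c ▸ push_ch h, fun h => push_ch (by rwa [cm_cm'])⟩



theorem RN_iff {c : Ch k n Y} :
    bc φ k c ∈ RN k (fo φ ⁻¹' U) (fo φ ⁻¹' V) n ↔ c ∈ RN k U V n :=
  ⟨fun h => push_push'' φ k c ▸ push_RN h, fun h => push_RN (by rwa [pre_pre, pre_pre])⟩

theorem Nul_iff {c : Ch k n Y} : bc φ k c ∈ Nul k (fo φ ⁻¹' U) n ↔ c ∈ Nul k U n :=
  ⟨fun h => push_push'' φ k c ▸ push_Nul h, fun h => push_Nul (by rwa [pre_pre])⟩

theorem on_van {a : Co A n Y} : pl (fo φ) a ∈ (On (fo φ ⁻¹' U)).van k A n ↔ a ∈ (On U).van k A n :=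
  cm_On (fo φ) U ▸ van_iff φ

theorem on_Z {a : Co A n Y} : pl (fo φ) a ∈ (On (fo φ ⁻¹' U)).Z k A n ↔ a ∈ (On U).Z k A n :=
  cm_On (fo φ) U ▸ Z_iff φ


theorem on_ch {c : Ch k n Y} : bc φ k c ∈ (On (fo φ ⁻¹' U)).ch k n ↔ c ∈ (On U).ch k n :=
  cm_On (fo φ) U ▸ ch_iff φ


theorem pl_Cc {a : Co A n Y} (h : a ∈ Cc k U A n) : pl (fo φ) a ∈ Cc k (fo φ ⁻¹' U) A n :=
  let ⟨K, hK, hU, h⟩ := h
  ⟨fo φ ⁻¹' K, φ.isCompact_preimage.2 hK, preimage_mono hU, (on_van φ (U := Kᶜ)).2 h⟩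

theorem Cc_iff {a : Co A n Y} : pl (fo φ) a ∈ Cc k (fo φ ⁻¹' U) A n ↔ a ∈ Cc k U A n :=
  ⟨fun h => by simpa only [pl_pl', pre_pre] using pl_Cc φ.symm h, pl_Cc φ⟩

theorem Cc_univ {a : Co A n Y} : pl (fo φ) a ∈ Cc k univ A n ↔ a ∈ Cc k univ A n :=
  Cc_iff φ (U := univ)

theorem ZP_iff {a : Co A n Y} : pl (fo φ) a ∈ ZP k (fo φ ⁻¹' U) A n ↔ a ∈ ZP k U A n :=
  and_congr (Cc_univ φ) (on_Z φ)

theorem pl_BP : ∀ {n} {a : Co A n Y}, a ∈ BP k U A n → pl (fo φ) a ∈ BP k (fo φ ⁻¹' U) A n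
  | 0, _, h => (on_van φ).2 h
  | _ + 1, _, h => by
    obtain ⟨η, hη, h⟩ := mem_BP.1 h
    exact mem_BP.2 ⟨pl (fo φ) η, (Cc_univ φ).2 hη, (on_van φ).2 h⟩

theorem BP_iff {a : Co A n Y} : pl (fo φ) a ∈ BP k (fo φ ⁻¹' U) A n ↔ a ∈ BP k U A n :=
  ⟨fun h => by simpa only [pl_pl', pre_pre] using pl_BP φ.symm h, pl_BP φ⟩

/-- the image of a submodule of cochains -/
def ms (N : Submodule k (Co A n Y)) : Submodule k (Co A n X) := N.map (pull k (fo φ))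

theorem mem_ms {N : Submodule k (Co A n Y)} {a : Co A n Y} : pl (fo φ) a ∈ ms φ N ↔ a ∈ N :=
  ⟨fun ⟨b, hb, e⟩ => (pe φ k A n).injective (a₁ := b) (a₂ := a) e ▸ hb, fun h => ⟨a, h, rfl⟩⟩

theorem mem_ms' {N : Submodule k (Co A n Y)} {b : Co A n X} : b ∈ ms φ N ↔ pl (fo φ.symm) b ∈ N := by
  rw [← mem_ms φ, pl_pl]

theorem ms_eq {N : Submodule k (Co A n Y)} {N' : Submodule k (Co A n X)}
    (h : ∀ a, pl (fo φ) a ∈ N' ↔ a ∈ N) : ms φ N = N' :=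
  Submodule.ext fun b => by rw [mem_ms', ← h, pl_pl]

theorem ms_mono {N N' : Submodule k (Co A n Y)} (h : N ≤ N') : ms φ N ≤ ms φ N' :=
  Submodule.map_mono h


theorem ms_sup (N N' : Submodule k (Co A n Y)) : ms φ (N ⊔ N') = ms φ N ⊔ ms φ N' :=
  Submodule.map_sup _ _ _





theorem ms_span (s : Set (Co A n Y)) :
    ms φ (Submodule.span k s) = Submodule.span k (pl (fo φ) '' s) := Submodule.map_span _ _



theorem ms_span_one (h : Co A n Y) : ms φ (k ∙ h) = k ∙ pl (fo φ) h := by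
  rw [ms_span, image_singleton]



theorem ms_van (P : Sb Y) : ms φ (P.van k A n) = (cm (fo φ) P).van k A n := ms_eq φ fun _ => van_iff φ

theorem ms_Z (P : Sb Y) : ms φ (P.Z k A n) = (cm (fo φ) P).Z k A n := ms_eq φ fun _ => Z_iff φ

theorem ms_Ex (P : Sb Y) : ms φ (P.Ex k A n) = (cm (fo φ) P).Ex k A n := ms_eq φ fun _ => Ex_iff φ


theorem ms_ZP (U : Set Y) : ms φ (ZP k U A n) = ZP k (fo φ ⁻¹' U) A n := ms_eq φ fun _ => ZP_iff φ

theorem ms_BP (U : Set Y) : ms φ (BP k U A n) = BP k (fo φ ⁻¹' U) A n := ms_eq φ fun _ => BP_iff φ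

/-- conjugated operator -/
def cj {A' : Type} [AddCommGroup A'] [Module k A'] (H : Co A i Y →ₗ[k] Co A' j Y) :
    Co A i X →ₗ[k] Co A' j X := pull k (fo φ) ∘ₗ H ∘ₗ pull k (fo φ.symm)

theorem cj_apply {A' : Type} [AddCommGroup A'] [Module k A'] (H : Co A i Y →ₗ[k] Co A' j Y)
    (q : Co A i X) : cj φ H q = pl (fo φ) (H (pl (fo φ.symm) q)) := rfl

theorem cj_pl {A' : Type} [AddCommGroup A'] [Module k A'] (H : Co A i Y →ₗ[k] Co A' j Y)
    (q : Co A i Y) : cj φ H (pl (fo φ) q) = pl (fo φ) (H q) := by rw [cj_apply, pl_pl']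

theorem cj_mem {A' : Type} [AddCommGroup A'] [Module k A'] {H : Co A i Y →ₗ[k] Co A' j Y}
    {N : Submodule k (Co A i Y)} {N' : Submodule k (Co A' j Y)} (h : ∀ q ∈ N, H q ∈ N') :
    ∀ q ∈ ms φ N, cj φ H q ∈ ms φ N' := fun _ hq => (mem_ms φ).2 (h _ ((mem_ms' φ).1 hq))

/-- transported functional -/
def dT {B : Type} [AddCommGroup B] [Module k B] (l : Co A i Y →ₗ[k] B) : Co A i X →ₗ[k] B :=
  l ∘ₗ pull k (fo φ.symm)

theorem dT_pl {B : Type} [AddCommGroup B] [Module k B] (l : Co A i Y →ₗ[k] B) (q : Co A i Y) :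
    dT φ l (pl (fo φ) q) = l q := congrArg l (pl_pl' φ q)

/-- `φ` preserves the orientations -/
def OR (O : Ori k d X) (O' : Ori k d Y) : Prop :=
  ∀ K z, IsCompact K → O.Fund K z → O'.Fund (φ '' K) (push k (fo φ) z)

variable {φ} {O : Ori k d X} {O' : Ori k d Y}

theorem OR.symm (h : OR φ O O') : OR φ.symm O' O := fun K z hK hz => by
  have hK' : IsCompact (φ.symm '' K) := hK.image φ.symm.continuous
  have e : φ '' (φ.symm '' K) = K := by simp [image_image]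
  have e' : (φ.symm '' K)ᶜ = fo φ ⁻¹' Kᶜ := by rw [φ.image_symm]; rfl
  have h1 := hz.sub_mem (e ▸ h _ _ hK' (O.fund_μ hK'))
  refine ⟨?_, ?_⟩
  · rw [e', bd_push]; exact (on_ch φ).2 hz.rc
  · rw [e']
    simpa only [bc, map_sub, push_push'] using (Nul_iff φ).2 h1

theorem OR.fund (h : OR φ O O') {K : Set Y} (hK : IsCompact K) {z : Ch k (d + 1) Y}
    (hz : O'.Fund K z) : O.Fund (fo φ ⁻¹' K) (bc φ k z) := by
  have := h.symm K z hK hz
  rwa [φ.image_symm] at this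

end homeo

section wall

variable {k : Type} [Field k] {φ : X ≃ₜ Y} {O : Ori k (d + 1) X} {O' : Ori k (d + 1) Y}
  {𝒰 : Set (Set X)} {𝒱 : Set (Set Y)} {s r : C(Y, ℝ)} {a b R : ℝ}

theorem lo_comp (f : C(X, Y)) : lo (s.comp f) a = f ⁻¹' lo s a := rfl

theorem hi_comp (f : C(X, Y)) : hi (s.comp f) a = f ⁻¹' hi s a := rfl




theorem Cv.cv (h : Cv (fo φ) 𝒰 𝒱) (ε : ℝ) :
    Cv (fo φ) (cv 𝒰 (s.comp (fo φ)) (r.comp (fo φ)) ε) (cv 𝒱 s r ε) where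
  im U := fun ⟨ho, ⟨C, hC, hU⟩, hs⟩ => ⟨fo φ.symm ⁻¹' U, ⟨ho.preimage φ.symm.continuous,
    let ⟨V, hV, e⟩ := h.im C hC; ⟨V, hV, fun y hy => by simpa using e (hU hy)⟩,
    fun x hx y hy => by simpa using hs _ hx _ hy⟩, fun x hx => by simpa using hx⟩
  pre V := fun ⟨ho, ⟨C, hC, hV⟩, hs⟩ => ⟨fo φ ⁻¹' V, ⟨ho.preimage φ.continuous,
    let ⟨U, hU, e⟩ := h.pre C hC; ⟨U, hU, (preimage_mono hV).trans e⟩,
    fun x hx y hy => hs _ hx _ hy⟩, subset_rfl⟩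

/-- walls are transported -/
theorem wr_bc (hO : OR φ O O') (hc : Cv (fo φ) 𝒰 𝒱) {w : Ch k (d + 1) Y} (h : Wr O' 𝒱 s r a b R w) :
    Wr O 𝒰 (s.comp (fo φ)) (r.comp (fo φ)) a b R (bc φ k w) := by
  obtain ⟨ε, m, K, z, h0, h1, h2, hK, hF, hz, hf, e⟩ := h
  refine ⟨ε, m, fo φ ⁻¹' K, bc φ k z, h0, h1, h2, φ.isCompact_preimage.2 hK, fun x hx => hF hx,
    ?_, hO.fund hK hf, ?_⟩
  · rw [← (hc.cv ε).cm]; exact (ch_iff φ).2 hz
  · have := (RN_iff φ).2 e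
    rwa [bc, map_sub, ← pre_pre φ (lo s m), push_wall] at this

end wall

end Crest.Agent.N255.Tr

end
private theorem rz_6113ba1554 : type_of% @_root_.Crest.Agent.N255.Tp.cyc.eq_1 := @_root_.Crest.Agent.N255.Tp.cyc.eq_1
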