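import Crest.Agent.N255.Tr.Kit
import Crest.Agent.N255.Ku.CoS
import Crest.Agent.N255.Cs.CapW
import Crest.Agent.N255.Le.Phi
import Crest.Agent.N255.Wv.Var
import Crest.Agent.N255.Wn.B2
import Crest.Agent.N255.En.Vt
import Crest.Agent.N255.Ma.Wd
import Crest.Agent.N255.Ma.Top2

-- ▼ part N255/Tr/Cs
section

/-!
# Row 255 (helper89): transport of connections, caps, parametrices, windows along a homeomorphism
-/

set_option autoImplicit false
open Set

noncomputable section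

namespace Crest.Agent.N255.Tr

open Tp Wn Cs Module

variable {X Y : Type} [TopologicalSpace X] [TopologicalSpace Y] {n i j : ℕ}

section lin

variable {B : Type} (f : C(X, Y))

theorem pl_add [Add B] (a b : Sx n Y → B) : pl f (a + b) = pl f a + pl f b := rfl

theorem pl_sub [Sub B] (a b : Sx n Y → B) : pl f (a - b) = pl f a - pl f b := rfl

theorem pl_neg [Neg B] (a : Sx n Y → B) : pl f (-a) = -pl f a := rfl




theorem pl_sum [AddCommMonoid B] {ι : Type*} (s : Finset ι) (a : ι → Sx n Y → B) :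
    pl f (∑ i ∈ s, a i) = ∑ i ∈ s, pl f (a i) := by
  funext σ; simp only [pl, Finset.sum_apply]

theorem pl_sum_smul [AddCommMonoid B] {R : Type*} [SMul R B] {ι : Type*} (s : Finset ι) (x : ι → R)
    (a : ι → Sx n Y → B) : pl f (∑ i ∈ s, x i • a i) = ∑ i ∈ s, x i • pl f (a i) := pl_sum f s _

variable {R : Type} [Ring R]


theorem dif_pl (g' g : Sx 1 Y → Rˣ) : dif (pl f g') (pl f g) = pl f (dif g' g) := rfl


variable {k : Type} [Field k]

theorem glue_pl (V : Set Y) (a b : Co k i Y) :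
    glue (f ⁻¹' V) (pl f a) (pl f b) = pl f (glue V a b) := by
  rw [glue, ← cut_pl]; rfl

theorem ct_pl (V : Set Y) (a : Co k i Y) : Wv.ct (f ⁻¹' V) (pl f a) = pl f (Wv.ct V a) :=
  glue_pl f V a 0

end lin

section tw

variable {p : ℕ} [Fact p.Prime] {K O : Type} [CommRing K] [CommRing O] [Algebra K O]
  {G : Gr (Gm p) K O} {m I : Ideal O} {P : Sb Y} (f : C(X, Y)) (φ : X ≃ₜ Y)







theorem ev_bc' {A : Type} [AddCommGroup A] [Module K A] (a : Co A n X) (c : Ch K n Y) :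
    ev K a (bc φ K c) = ev K (fun τ => a ((fo φ.symm).comp τ)) c := ev_push _ a c

theorem pl_e2 {B : Type} (a : Sx 1 Y → B) (σ : Sx n X) (x y : Fin (n + 1)) :
    a (e2 (f.comp σ) x y) = pl f a (e2 σ x y) := rfl


/-- transported torus -/
def tor (T : To K Y) : To K X where
  P := cm (fo φ) T.P
  t := bc φ K T.t
  al := pl (fo φ) T.al
  be := pl (fo φ) T.be
  ht := (ch_iff φ).2 T.ht
  cy := by rw [bd_bc, T.cy, bc, map_zero]
  ha := pl_Z T.ha
  hb := pl_Z T.hb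

variable (T : To K Y)



theorem tor_cap (a : (Tw G)ˣ) (w : Tw G) : (tor φ T).cap a w = T.cap a w :=
  (ev_bc' φ _ T.t).trans (by simp only [tor, To.cap, ← pl_e2, fo_comp_symm])




variable [Fact ((p : O) = 0)]





theorem CS_bc (g : Cn G Y) (c : Ch K 3 Y) : ev K (CS (pl (fo φ) g)) (bc φ K c) = ev K (CS g) c :=
  ev_bc φ (CS g) c

theorem tor_W (σ : Ch K 3 Y) (g : Cn G Y) (a b : (Tw G)ˣ) :
    (tor φ T).W (bc φ K σ) (pl (fo φ) g) a b = T.W σ g a b := by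
  rw [To.W, To.W, CS_bc, tor_cap]

end tw

section field

variable {K : Type} [Field K] {M : Type} [AddCommGroup M] [Module K M] (φ : X ≃ₜ Y)






variable {p : ℕ} [Fact p.Prime] {O : Type} [CommRing O] [Algebra K O] {G : Gr (Gm p) K O}




/-! ### normal forms -/

variable {𝒰 : Set (Set X)} {𝒱 : Set (Set Y)} {φ}

/-- preimages of a family of sets -/
def pr (f : C(X, Y)) (𝒵 : Set (Set Y)) : Set (Set X) := (f ⁻¹' ·) '' 𝒵

theorem cv_pr (f : C(X, Y)) (𝒵 : Set (Set Y)) : Cv f (pr f 𝒵) 𝒵 :=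
  ⟨by rintro _ ⟨V, hV, rfl⟩; exact ⟨V, hV, subset_rfl⟩, fun V hV => ⟨_, ⟨V, hV, rfl⟩, subset_rfl⟩⟩



theorem Cv.sb {f : C(X, Y)} (h : Cv f 𝒰 𝒱) (U : Set Y) : Tr.cm f (SB 𝒱 U) = SB 𝒰 (f ⁻¹' U) := by
  rw [cm_inf, cm_On, h.cm]

theorem Cv.vo (h : Cv (fo φ) 𝒰 𝒱) (U : Set Y) :
    ms φ (Le.vo K 𝒱 U n) = Le.vo K 𝒰 (fo φ ⁻¹' U) n := by rw [ms_van, h.sb]

theorem Cv.vs (h : Cv (fo φ) 𝒰 𝒱) (𝒵 : Set (Set Y)) :
    ms φ (Le.vs K 𝒱 𝒵 n) = Le.vs K 𝒰 (pr (fo φ) 𝒵) n := by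
  rw [ms_van, cm_inf, h.cm, (cv_pr _ 𝒵).cm]

theorem Cv.sm_ch (h : Cv (fo φ) 𝒰 𝒱) {c : Ch K n Y} :
    bc φ K c ∈ (Sm 𝒰).ch K n ↔ c ∈ (Sm 𝒱).ch K n := h.cm ▸ ch_iff φ

variable (φ)


variable {P : Co K 2 Y →ₗ[K] Co K 2 Y} {E A : Submodule K (Co K 2 Y)}
  {H : Co K 2 Y →ₗ[K] Co K 1 Y} {Hs C : Submodule K (Co K 1 Y)}








theorem le_zb {U V W : Set Y} (h : ZP K U K n ≤ ZP K V K n ⊔ BP K W K n) :
    ZP K (fo φ ⁻¹' U) K n ≤ ZP K (fo φ ⁻¹' V) K n ⊔ BP K (fo φ ⁻¹' W) K n := by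
  rw [← ms_ZP, ← ms_ZP, ← ms_BP, ← ms_sup]; exact ms_mono φ h

theorem win_cm {s : C(Y, ℝ)} {l r : ℕ → ℝ} (h : Wv.Win K i s l r) :
    Wv.Win K i (s.comp (fo φ)) l r :=
  ⟨h.ml, h.ar, h.lt, fun m a ha b hb => by
    simp only [lo_comp]; exact le_zb φ (h.cl m a ha b hb), fun m a ha b hb => by
    simp only [hi_comp]; exact le_zb φ (h.cr m a ha b hb)⟩

end field

end Crest.Agent.N255.Tr

end
end

-- ▼ part N255/Tr/En
section

/-!
# Row 255 (helper89): translation by an element of `F` on the end structure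
-/

set_option autoImplicit false
open Set
open scoped Pointwise

noncomputable section

namespace Crest.Agent.N255.Tr

open Tp Wn En Pt Nv

section act

variable {G X : Type} [Group G] [TopologicalSpace X] [MulAction G X] [ContinuousConstSMul G X] {n : ℕ}

variable (X) in
/-- the homeomorphism `x ↦ f⁻¹ • x`; pulling back along it translates data by `f` -/
def tf (f : G) : X ≃ₜ X := (Homeomorph.smul f).symm

theorem tf_apply (f : G) (x : X) : fo (tf X f) x = f⁻¹ • x := rfl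




theorem pre_tf (f : G) (U : Set X) : fo (tf X f) ⁻¹' U = f • U :=
  Set.ext fun _ => mem_smul_set_iff_inv_smul_mem.symm

/-- the value of a translated function on a translated simplex -/
theorem pl_tf_tr {B : Type} (f : G) (a : Sx n X → B) (σ : Sx n X) :
    pl (fo (tf X f)) a ((Uc.tr f).comp σ) = a σ := congrArg a (fo_comp_symm (tf X f) σ)

theorem pl_tf_eq {B : Type} (f : G) {a b : Sx n X → B} (h : ∀ σ, b ((Uc.tr f).comp σ) = a σ) :
    pl (fo (tf X f)) a = b :=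
  funext <| (forall_sx (tf X f).symm).1 fun σ => (pl_tf_tr f a σ).trans (h σ).symm

theorem cm_tf_eq (f : G) {P Q : Tp.Sb X} (h : ∀ n σ, (Uc.tr f).comp σ ∈ Q.S n ↔ σ ∈ P.S n) :
    cm (fo (tf X f)) P = Q :=
  sb_ext fun n => (forall_sx (tf X f).symm).1 fun σ => by
    rw [mem_cm, fo_comp_symm]; exact (h n σ).symm

theorem cv_tf {𝒰 : Set (Set X)} (h : ∀ f : G, ∀ U ∈ 𝒰, f • U ∈ 𝒰) (f : G) : Cv (fo (tf X f)) 𝒰 𝒰 :=
  ⟨fun U hU => ⟨f⁻¹ • U, h _ U hU, by rw [pre_tf, smul_inv_smul]⟩,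
    fun V hV => ⟨f • V, h _ V hV, (pre_tf f V).subset⟩⟩

theorem or_tf {k : Type} [CommRing k] {d : ℕ} {O : Ori k d X}
    (h : ∀ (f : G) K z, IsCompact K → O.Fund K z → O.Fund (f • K) (push k (Uc.tr f) z)) (f : G) :
    OR (tf X f) O O := fun K z hK hz => h f⁻¹ K z hK hz

end act

variable {ι S : Type} [DecidableEq ι] [MulAction (FreeGroup ι) S] {w : Wl ι S}
  {F : Subgroup (FreeGroup ι)} {X : Type} [TopologicalSpace X] [MulAction F X]
  [ContinuousConstSMul F X] (N : Lev w F X) (f : F) (e : Ed ι) {n : ℕ} {a b R : ℝ}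

theorem s_tf : (N.s e).comp (fo (tf X f)) = N.s (f.1 • e) := by
  ext x
  rw [ContinuousMap.comp_apply, tf_apply, ← N.s_smul f, smul_inv_smul]

theorem r_tf : N.r.comp (fo (tf X f)) = N.r := by
  ext x; exact N.r_smul _ x

theorem cvN : Cv (fo (tf X f)) N.cv N.cv := cv_tf N.cv_smul f

theorem lo_tf : fo (tf X f) ⁻¹' lo (N.s e) a = lo (N.s (f.1 • e)) a := by rw [← lo_comp, s_tf]

theorem hi_tf : fo (tf X f) ⁻¹' hi (N.s e) a = hi (N.s (f.1 • e)) a := by rw [← hi_comp, s_tf]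



theorem far_tf : fo (tf X f) ⁻¹' hi N.r R = hi N.r R := by rw [← hi_comp, r_tf]


theorem Sm_tf : cm (fo (tf X f)) (Sm N.cv) = Sm N.cv := (cvN N f).cm

theorem Sb_tf (U : Set X) : cm (fo (tf X f)) (N.Sb U) = N.Sb (fo (tf X f) ⁻¹' U) := (cvN N f).sb U

theorem Lb_tf : cm (fo (tf X f)) (N.Lb R (w.T e)) = N.Lb R (w.T (f.1 • e)) :=
  cm_tf_eq f fun _ _ => Lev.Lb_tr f

variable (M : Md w)



variable {k : Type} [Field k]


theorem wr_tf {d : ℕ} {O : Ori k (d + 1) X} (hO : OR (tf X f) O O) {y : Ch k (d + 1) X}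
    (h : Wr O N.cv (N.s e) N.r a b R y) :
    Wr O N.cv (N.s (f.1 • e)) N.r a b R (bc (tf X f) k y) := by
  have := wr_bc hO (cvN N f) h
  rwa [s_tf, r_tf] at this

theorem Lb_bc {τ : Ch k n X} (h : τ ∈ (N.Lb R (w.T e)).ch k n) :
    bc (tf X f) k τ ∈ (N.Lb R (w.T (f.1 • e))).ch k n := Lb_tf N f e ▸ (ch_iff _).2 h

theorem to_ext {K Y : Type} [CommRing K] [TopologicalSpace Y] {T T' : Cs.To K Y} (h1 : T.P = T'.P)
    (h2 : T.t = T'.t) (h3 : T.al = T'.al) (h4 : T.be = T'.be) : T = T' := by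
  cases T; cases T'; cases h1; cases h2; cases h3; cases h4; rfl


theorem geo_or {F : Subgroup Ma.F3} {S X : Type} [MulAction Ma.F3 S] [TopologicalSpace X]
    [MulAction F X] [ContinuousConstSMul F X] (g : Ma.Geo F k S X) (f : F) : OR (tf X f) g.O g.O :=
  or_tf g.ori f

end Crest.Agent.N255.Tr

end
end

-- ▼ part N255/Tr/Rel
section

/-!
# Row 255 (helper89): related walls have the same family, the same potential and the same `Wall`
-/

set_option autoImplicit false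
open Set Module

noncomputable section

namespace Crest.Agent.N255.Tr

open Tp Cs Cs.Tw

variable {p : ℕ} [Fact p.Prime] {K O : Type} [Field K] [CommRing O] [Algebra K O]
  {G : Gr (Gm p) K O} {m : Ideal O} {X Y : Type} [TopologicalSpace X] [TopologicalSpace Y]
  {n i j : ℕ} (f : C(X, Y))


theorem nl_pl (g1 : Cn G Y) (S : Co (Tw G) 2 Y) (g : Cn G Y) :
    pl f (Lp.nl K g1 S g) = Lp.nl K (pl f g1) (pl f S) (pl f g) := rfl

variable {f}

theorem tens_pl {M : Type} [AddCommGroup M] [Module K M] [Module.Finite K M]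
    {H' : Co K i Y →ₗ[K] Co K j Y} {H : Co K i X →ₗ[K] Co K j X}
    (h : ∀ q, pl f (H' q) = H (pl f q)) (a : Co M i Y) :
    pl f (Ku.tens H' a) = Ku.tens H (pl f a) :=
  funext fun σ => Ku.dual_ext fun u => by
    rw [Ku.dual_tens, pl_apply, Ku.dual_tens]
    exact congrFun (h fun x => u (a x)) σ


theorem fam_pl [Module.Finite K O] {hm : G.Id m} {H' : Co K 2 Y →ₗ[K] Co K 1 Y}
    {H : Co K 2 X →ₗ[K] Co K 1 X} (h : ∀ q, pl f (H' q) = H (pl f q)) {g1 g : Cn G Y}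
    {S : Co (Tw G) 2 Y} (F : Lp.Fam hm H' g1 S g) : Lp.Fam hm H (pl f g1) (pl f S) (pl f g) :=
  ⟨fun _ => F.u1 _, fun _ => F.u _, by rw [dif_pl, F.eq, pl_neg, ← nl_pl, ← tens_pl h]⟩

end Crest.Agent.N255.Tr

namespace Crest.Agent.N255.Ma
open Tp Nv Pt Lv En Wn Le Cs Cs.Tw Tr _root_.N255.Core _root_.N255.Dr _root_.N255.Dr.O

variable {F : Subgroup F3} {S : Type} [MulAction F3 S] {X : Type} [TopologicalSpace X]
  [MulAction F X] [ContinuousConstSMul F X]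

omit [ContinuousConstSMul F X] in
theorem win_rv {w : Wl (Fin 3) S} (N : Lev w F X) (e : Ed (Fin 3)) (a b : ℝ) :
    win (N.s (rev e)) (1 - b) (1 - a) = win (N.s e) a b := by
  rw [win_eq, win_eq, Wn.lo_rev, Wn.hi_rev, inter_comm, sub_sub_cancel, sub_sub_cancel]

theorem s_tr {w : Wl (Fin 3) S} (N : Lev w F X) (f : F) (e : Ed (Fin 3)) :
    (N.s (f.1 • e)).comp (Uc.tr f) = N.s e := ContinuousMap.ext fun x => N.s_smul f e x



section sets
variable {Y : Type} [TopologicalSpace Y] (φ : C(X, Y)) (s : C(Y, ℝ)) (l r : ℕ → ℝ)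

theorem Bs_pre (c : Bool) (m : ℕ) : φ ⁻¹' Bs s l r c m = Bs (s.comp φ) l r c m := by cases c <;> rfl

theorem As_pre (c : Bool) (m : ℕ) : φ ⁻¹' As s l r c m = As (s.comp φ) l r c m := by cases c <;> rfl

theorem zs_pre (n i : ℕ) : pr φ (zs s l r n i) = zs (s.comp φ) l r n i := by
  ext U
  constructor
  · rintro ⟨V, rfl | ⟨z, a, b, rfl | rfl⟩, rfl⟩
    exacts [.inl rfl, .inr ⟨z, a, b, .inl rfl⟩, .inr ⟨z, a, b, .inr rfl⟩]
  · rintro (rfl | ⟨z, a, b, rfl | rfl⟩)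
    exacts [⟨_, .inl rfl, rfl⟩, ⟨_, .inr ⟨z, a, b, .inl rfl⟩, rfl⟩, ⟨_, .inr ⟨z, a, b, .inr rfl⟩, rfl⟩]

end sets

namespace Wd

section scalar
variable {k : Type} [Field k] {g : Geo F k S X} {u R₀ : ℝ} {n : ℕ} {J : Type} [Fintype J] {τ : Ty J}
  {e e' e'' : Ed (Fin 3)} {o o' o'' : Bool} (ω : Wd g u R₀ n τ e o)

theorem B_me (c : Bool) (m : ℕ) : ω.B (c == o) m = Bs (g.E.s (me e o)) ω.lm ω.rm c m := by
  cases o
  · cases c
    · exact (Wn.hi_rev g.E.toLev e).trans (by rw [lm, if_neg Bool.false_ne_true, sub_sub_cancel]; rfl)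
        |>.symm
    · exact (Wn.lo_rev g.E.toLev e).trans (by rw [rm, if_neg Bool.false_ne_true, sub_sub_cancel]; rfl)
        |>.symm
  · cases c <;> rfl

theorem A_me (c : Bool) (m : ℕ) : ω.A (c == o) m = As (g.E.s (me e o)) ω.lm ω.rm c m := by
  cases o
  · cases c
    · exact (Wn.hi_rev g.E.toLev e).trans (by rw [rm, if_neg Bool.false_ne_true, sub_sub_cancel]; rfl)
        |>.symm
    · exact (Wn.lo_rev g.E.toLev e).trans (by rw [lm, if_neg Bool.false_ne_true, sub_sub_cancel]; rfl)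
        |>.symm
  · cases c <;> rfl


theorem Z_me (i : ℕ) : ω.Z i = zs (g.E.s (me e o)) ω.lm ω.rm n i := by
  cases o
  · ext U
    simp only [zs, mem_ofPred_eq, me_false, lm, rm, Bool.false_eq_true, if_false, win_rv, or_comm]
  · rfl

variable {ω} {ω' : Wd g u R₀ n τ e' o'} {ω'' : Wd g u R₀ n τ e'' o''} {f f' : F}

namespace Rel

theorem refl (ω : Wd g u R₀ n τ e o) : Rel 1 ω ω := by
  have e : ∀ {B : Type} {d : ℕ} (a : Sx d X → B), pl (Uc.tr (1 : F)) a = a := fun a =>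
    funext fun σ => congrArg a (ContinuousMap.ext fun x => one_smul F (σ x))
  exact ⟨one_smul _ _, rfl, rfl, fun _ => e _, e _, fun q => by rw [e, e], fun j q => by rw [e]⟩

theorem trans (h : Rel f ω ω') (h' : Rel f' ω' ω'') : Rel (f' * f) ω ω'' := by
  have e : ∀ {B : Type} {d : ℕ} (a : Sx d X → B),
      pl (Uc.tr (f' * f)) a = pl (Uc.tr f) (pl (Uc.tr f') a) := fun a => by rw [← Uc.tr_comp]; rfl
  exact ⟨by rw [← h'.ed, ← h.ed, Subgroup.coe_mul, mul_smul], h'.l.trans h.l, h'.r.trans h.r,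
    fun j => by rw [e, h'.h, h.h], by rw [e, h'.η, h.η], fun q => by rw [e, e, h'.H, h.H],
    fun j q => by rw [e, h'.lam, h.lam]⟩

variable (h : Rel f ω ω')
include h

theorem symm : Rel f⁻¹ ω' ω := by
  have e : ∀ {B : Type} {d : ℕ} (a : Sx d X → B), pl (Uc.tr f⁻¹) (pl (Uc.tr f) a) = a :=
    fun a => pl_pl (tf X f) a
  have e' : ∀ {B : Type} {d : ℕ} (a : Sx d X → B), pl (Uc.tr f) (pl (Uc.tr f⁻¹) a) = a :=
    fun a => pl_pl' (tf X f) a
  exact ⟨by rw [← h.ed, Subgroup.coe_inv, inv_smul_smul], h.l.symm, h.r.symm,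
    fun j => by rw [← h.h, e], by rw [← h.η, e], fun q => by rw [← e (ω'.H _), h.H, e'],
    fun j q => by rw [h.lam, e']⟩

theorem s : (g.E.s (me e' o')).comp (Uc.tr f) = g.E.s (me e o) := by rw [← h.ed, s_tr]

theorem B (c : Bool) (m : ℕ) : Uc.tr f ⁻¹' ω'.B (c == o') m = ω.B (c == o) m := by
  rw [B_me, B_me, Bs_pre, h.s, h.l, h.r]

theorem A (c : Bool) (m : ℕ) : Uc.tr f ⁻¹' ω'.A (c == o') m = ω.A (c == o) m := by
  rw [A_me, A_me, As_pre, h.s, h.l, h.r]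

theorem Z (i : ℕ) : pr (Uc.tr f) (ω'.Z i) = ω.Z i := by
  rw [Z_me, Z_me, zs_pre, h.s, h.l, h.r]


theorem ct (j : J) : pl (Uc.tr f) (ω'.ct j) = ω.ct j := by
  rw [Wd.ct, Wd.ct, ← ct_pl, h.B, h.h]

theorem cx : ∀ x, pl (Uc.tr f) (ω'.cx x) = ω.cx x
  | .inl j => h.ct j
  | .inr true => rfl
  | .inr false => congrArg Neg.neg h.η

theorem Hp (q : Co k 2 X) : pl (Uc.tr f) (ω'.Hp q) = ω.Hp (pl (Uc.tr f) q) := by
  simp only [Hp_apply, pl_add, pl_sum_smul, h.H, h.ct, h.lam]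

theorem al : pl (Uc.tr f) (g.E.toLev.mz g.M R₀ (me e' o')) = g.E.toLev.mz g.M R₀ (me e o) := by
  rw [← h.ed]; exact funext (Lev.mz_tr f)

theorem be :
    pl (Uc.tr f) (g.E.toLev.mz g.M R₀ (rev (me e' o'))) = g.E.toLev.mz g.M R₀ (rev (me e o)) := by
  rw [← h.ed, rev_smul]; exact funext (Lev.mz_tr f)

end Rel

variable {R : ℝ} {σ : Ch k 3 X}

theorem sig_wr [T2Space X] :
    Wr g.O g.E.cv (g.E.s e) g.E.r (ω.l n) (ω.r n) R (if o then σ else -σ) ↔
      Wr g.O g.E.cv (g.E.s (me e o)) g.E.r (ω.lm n) (ω.rm n) R σ := by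
  cases o
  · refine ⟨fun h => ?_, fun h => ?_⟩
    · simpa only [Bool.false_eq_true, if_false, neg_neg, lm, rm, me_false] using
        wr_rev g.E.cv_open g.E.cv_cover (g.E.s_rev e) h
    · have := wr_rev g.E.cv_open g.E.cv_cover (s' := g.E.s e) (c := 1)
        (fun x => by rw [me_false, g.E.s_rev, sub_sub_cancel]) h
      simpa only [lm, rm, Bool.false_eq_true, if_false, sub_sub_cancel] using this
  · rfl

/-- the translate of a wall chain is a wall chain -/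
theorem Rel.sig [T2Space X] (h : Rel f ω ω') (hs : ω.Sig R σ) : ω'.Sig R (push k (Uc.tr f) σ) where
  wr := by
    rw [sig_wr, h.l, h.r, ← h.ed]
    exact wr_tf g.E.toLev f _ (geo_or g f) (sig_wr.1 hs.wr)
  sm := ((cvN g.E.toLev f).sm_ch (K := k)).2 hs.sm
  lb := by rw [bd_push, ← h.ed]; exact Lb_bc g.E.toLev f _ hs.lb

theorem Rel.T (h : Rel f ω ω') {R' : ℝ} (hs : ω.Sig R σ) (hs' : ω'.Sig R' (push k (Uc.tr f) σ)) :
    hs'.T = tor (tf X f) hs.T :=
  to_ext ((Lb_tf g.E.toLev f _).trans (by rw [h.ed]; rfl)).symm (bd_push _ σ)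
    (pl_tf_eq f (congrFun h.al)).symm (pl_tf_eq f (congrFun h.be)).symm

end scalar

variable {p : ℕ} [Fact p.Prime] {J : Type} [Fintype J] {g : Geo F (ZMod p) S X} {u R₀ : ℝ} {n : ℕ}
  {τ : Ty J} {e e' : Ed (Fin 3)} {o o' : Bool} {ω : Wd g u R₀ n τ e o} {ω' : Wd g u R₀ n τ e' o'}
  {f : F} {R R' : ℝ} {σ : Ch (ZMod p) 3 X}

namespace Rel
variable (h : Rel f ω ω')
include h

theorem g0 {A : Type} [Ring A] (a b : Aˣ) : pl (Uc.tr f) (ω'.g0 a b) = ω.g0 a b := by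
  funext σ
  rw [Wd.g0, ← h.al, ← h.be]; rfl

theorem g1 : pl (Uc.tr f) ω'.g1 = ω.g1 :=
  funext fun σ => Units.ext <| by
    rw [pl_apply, Wd.g1, Wd.g1, Lp.val_pl, Lp.val_pl, ← h.g0, ← funext h.cx]; rfl

theorem Sr : pl (Uc.tr f) ω'.Sr = ω.Sr := by
  rw [Wd.Sr, Wd.Sr, ← funext h.ct]; rfl

/-- **the family of the translate is the translate of the family** -/
theorem gU : pl (Uc.tr f) ω'.gU = ω.gU :=
  ω.fam.uniq Tg.mx_nil (h.g1 ▸ h.Sr ▸ fam_pl h.Hp ω'.fam)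

theorem gU' : ω'.gU = pl (fo (tf X f)) ω.gU := (pl_tf_eq f (congrFun h.gU)).symm



/-- **the potential is invariant** -/
theorem W (hs : ω.Sig R σ) (hs' : ω'.Sig R' (push (ZMod p) (Uc.tr f) σ)) : hs'.W = hs.W := by
  rw [Sig.W, Sig.W, h.T hs hs', h.gU']; exact tor_W _ _ _ _ _ _


end Rel

end Wd

end Crest.Agent.N255.Ma

end
end

-- ▼ part N255/Tr/Ex
section

/-!
# Row 255 (helper45): translates and flips of the scalar data of a wall
-/

set_option autoImplicit false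
open Set Module

noncomputable section

namespace Crest.Agent.N255.Ma
open Tp Nv Pt Lv En Wn Le Tr

section sets
variable {X Y : Type} [TopologicalSpace X] [TopologicalSpace Y] {s s' : C(X, ℝ)} {l r : ℕ → ℝ}

theorem Bs_comp (f : C(Y, X)) (b : Bool) (m : ℕ) : Bs (s.comp f) l r b m = f ⁻¹' Bs s l r b m := by
  cases b <;> rfl

theorem As_comp (f : C(Y, X)) (b : Bool) (m : ℕ) : As (s.comp f) l r b m = f ⁻¹' As s l r b m := by
  cases b <;> rfl

theorem zs_comp (f : C(Y, X)) (n i : ℕ) : zs (s.comp f) l r n i = pr f (zs s l r n i) := by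
  ext U
  constructor
  · rintro (rfl | ⟨z, h1, h2, rfl | rfl⟩)
    exacts [⟨_, .inl rfl, rfl⟩, ⟨_, .inr ⟨z, h1, h2, .inl rfl⟩, rfl⟩,
      ⟨_, .inr ⟨z, h1, h2, .inr rfl⟩, rfl⟩]
  · rintro ⟨V, rfl | ⟨z, h1, h2, rfl | rfl⟩, rfl⟩
    exacts [.inl rfl, .inr ⟨z, h1, h2, .inl rfl⟩, .inr ⟨z, h1, h2, .inr rfl⟩]

theorem Bs_flip (hs : ∀ x, s' x = 1 - s x) (b : Bool) (m : ℕ) :
    Bs s' (fun m => 1 - r m) (fun m => 1 - l m) b m = Bs s l r (!b) m := by
  cases b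
  exacts [Wv.hi_rev hs _, Wv.lo_rev hs _]

theorem As_flip (hs : ∀ x, s' x = 1 - s x) (b : Bool) (m : ℕ) :
    As s' (fun m => 1 - r m) (fun m => 1 - l m) b m = As s l r (!b) m := by
  cases b
  exacts [Wv.hi_rev hs _, Wv.lo_rev hs _]

theorem win_flip (hs : ∀ x, s' x = 1 - s x) (a b : ℝ) : win s' (1 - b) (1 - a) = win s a b := by
  ext x
  simp only [win, mem_ofPred_eq, hs]
  constructor <;> rintro ⟨h1, h2⟩ <;> constructor <;> linarith

theorem zs_flip (hs : ∀ x, s' x = 1 - s x) (n i : ℕ) :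
    zs s' (fun m => 1 - r m) (fun m => 1 - l m) n i = zs s l r n i := by
  simp only [zs, win_flip hs, or_comm]

variable {k J : Type} [Field k] [Fintype J]

/-- transport of the normal forms -/
theorem Nf.tr (φ : Y ≃ₜ X) {𝒰 : Set (Set Y)} {𝒱 : Set (Set X)} (hc : Cv (fo φ) 𝒰 𝒱)
    {𝒵 : ℕ → Set (Set X)} {n : ℕ} {ct : J → Co k 1 X} {sc : J → ℕ} {H : Co k 2 X →ₗ[k] Co k 1 X}
    {lam : J → Dual k (Co k 2 X)} {E : Submodule k (Co k 2 X)} (h : Nf 𝒱 𝒵 n ct sc H lam E) :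
    Nf 𝒰 (fun i => pr (fo φ) (𝒵 i)) n (fun j => pl (fo φ) (ct j)) sc (cj φ H)
      (fun j => dT φ (lam j)) (ms φ E) where
  mem _ := (Cc_univ φ).2 (h.mem _)
  nf := (forall_co φ).1 fun q => by
    have := (mem_ms φ).2 (h.nf q)
    simp only [cj_pl, dT_pl]
    rwa [pl_sub, pl_sub, pl_sum_smul] at this
  s1 := by
    rintro _ ⟨V, hV, rfl⟩
    refine (forall_co φ).1 fun q hq => (forall_co φ).1 fun θ hθ => ?_
    rw [← hc.vo, cob_pl, ← pl_sub, mem_ms, mem_ms]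
    exact h.s1 V hV q ((mem_ms φ).1 hq) θ ((Cc_univ φ).1 hθ)
  fl i h1 h2 := by
    rw [← hc.vs, ← hc.vs]
    exact cj_mem φ (h.fl i h1 h2)
  lam0 i j h1 h2 q hq := h.lam0 i j h1 h2 _ ((mem_ms' φ).1 (hc.vs (K := k) (𝒵 i) ▸ hq))
  low := by rw [← hc.vs]; exact ms_mono φ h.low
  zero q hq := by
    rw [cj_apply, h.zero _ ((mem_ms' φ).1 (hc.vs (K := k) (𝒵 0) ▸ hq))]; rfl
  fl2 i h1 q hq := by
    have := h.fl2 i h1 _ ((mem_ms' φ).1 (hc.vs (K := k) (𝒵 i) ▸ hq))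
    exact ⟨hc.vs (K := k) (𝒵 (i + 1)) ▸ (mem_ms φ).2 this.1, this.2⟩

end sets

section bz
variable {ι S : Type} [DecidableEq ι] [MulAction (FreeGroup ι) S] {w : Wl ι S}
  {F : Subgroup (FreeGroup ι)} {X : Type} [TopologicalSpace X] [MulAction F X]
  [ContinuousConstSMul F X] {k : Type} [Field k] (M : Md w) (f : F) (e : Ed ι) {t R : ℝ}

theorem Xe_tf (N : Lev w F X) :
    pl (fo (tf X f)) (Or.Xe N M k e R) = Or.Xe N M k (f.1 • e) R := by
  rw [Or.Xe, Or.Xe, ← res_pl, cm_On, far_tf]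
  exact congrArg _ (pl_tf_eq f fun σ => congrFun (Or.pull_al (N := N) (M := M) (k := k) f) σ)

variable {M e}

/-- transport of the data of block B0 -/
theorem bz_tf {E : End w F k X} {η h : Co k 1 X} (b : Or.Bz M E e t R η h) :
    Or.Bz M E (f.1 • e) t R (pl (fo (tf X f)) η) (pl (fo (tf X f)) h) where
  cc := (Cc_univ _).2 b.cc
  cl := by
    rw [← Xe_tf, ← pl_sub, ← lo_tf E.toLev, ← Sb_tf]; exact pl_Z b.cl
  hZ := by rw [← lo_tf E.toLev]; exact (on_Z _).2 b.hZ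
  sm := by
    rw [← Xe_tf, ← pl_sub, ← pl_sub, ← Sm_tf E.toLev f]; exact pl_van b.sm
  spL a a' h1 h2 h3 h4 := by
    have := ms_mono (tf X f) (b.spL a a' h1 h2 h3 h4)
    rwa [ms_sup, ms_sup, ms_Z, ms_ZP, ms_Ex, ms_span_one, cm_On, cm_On, lo_tf E.toLev,
      lo_tf E.toLev] at this
  spR a a' h1 h2 h3 := by
    have := ms_mono (tf X f) (b.spR a a' h1 h2 h3)
    rwa [ms_sup, ms_Z, ms_ZP, ms_Ex, cm_On, cm_On, hi_tf E.toLev, hi_tf E.toLev] at this

end bz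

theorem me_smul {ι : Type} [DecidableEq ι] (f : FreeGroup ι) (e : Ed ι) (o : Bool) :
    f • me e o = me (f • e) o := by
  cases o
  exacts [(rev_smul f e).symm, rfl]

theorem me_rev {ι : Type} (e : Ed ι) (o : Bool) : me (rev e) (!o) = me e o := by
  cases o
  exacts [rfl, rev_rev e]


theorem me_eq {ι : Type} {e e' : Ed ι} {o o' : Bool} (h : me e o = me e' o') :
    (e' = e ∧ o' = o) ∨ (e' = rev e ∧ o' = !o) := by
  cases o <;> cases o'
  · exact .inl ⟨by simpa [rev_rev] using (congrArg rev h).symm, rfl⟩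
  · exact .inr ⟨h.symm, rfl⟩
  · exact .inr ⟨by rw [show e = rev e' from h, rev_rev], rfl⟩
  · exact .inl ⟨h.symm, rfl⟩

variable {F : Subgroup F3} {S : Type} [MulAction F3 S] {X : Type} [TopologicalSpace X]
  [MulAction F X] [ContinuousConstSMul F X] {k : Type} [Field k]

namespace Wd
variable {g : Geo F k S X} {u R₀ : ℝ} {n : ℕ} {J : Type} [Fintype J] {τ : Ty J}
  {e e' : Ed (Fin 3)} {o o' : Bool} (ω : Wd g u R₀ n τ e o)

theorem Bs_tf (f : F) (l r : ℕ → ℝ) (c : Bool) (m : ℕ) :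
    Bs (g.E.s (f.1 • e)) l r c m = fo (tf X f) ⁻¹' Bs (g.E.s e) l r c m := by
  rw [← Bs_comp, s_tf g.E.toLev]

theorem As_tf (f : F) (l r : ℕ → ℝ) (c : Bool) (m : ℕ) :
    As (g.E.s (f.1 • e)) l r c m = fo (tf X f) ⁻¹' As (g.E.s e) l r c m := by
  rw [← As_comp, s_tf g.E.toLev]

/-- the translate by `f` -/
def map (f : F) : Wd g u R₀ n τ (f.1 • e) o where
  l := ω.l
  r := ω.r
  a := ω.a
  b := ω.b
  u0 := ω.u0
  big := ω.big
  ua := ω.ua
  al := ω.al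
  rb := ω.rb
  bu := ω.bu
  win := s_tf g.E.toLev f e ▸ win_cm (tf X f) ω.win
  h j := pl (fo (tf X f)) (ω.h j)
  sc_lt := ω.sc_lt
  mem j := by rw [Bs_tf]; exact (ZP_iff _).2 (ω.mem j)
  van j m hm := by rw [As_tf]; exact (on_van _).2 (ω.van j m hm)
  span c m hm := (forall_co (tf X f)).1 fun q hq => by
    rw [Bs_tf, ZP_iff] at hq
    obtain ⟨x, h1, h2⟩ := ω.span c m hm q hq
    refine ⟨x, h1, ?_⟩
    rw [Bs_tf, ← pl_sum_smul, ← pl_sub]
    exact pl_BP _ h2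
  η := pl (fo (tf X f)) ω.η
  hw := pl (fo (tf X f)) ω.hw
  bz := by rw [← me_smul, rev_smul]; exact bz_tf f ω.bz
  H := cj (tf X f) ω.H
  lam j := dT (tf X f) (ω.lam j)
  E := ms (tf X f) ω.E
  nf := by
    have := ω.nf.tr (tf X f) (cvN g.E.toLev f)
    simp only [← zs_comp, ← ct_pl, ← Bs_comp, s_tf g.E.toLev] at this
    exact this

theorem rel_map (f : F) : Rel f ω (ω.map f) where
  ed := me_smul _ _ _
  l := rfl
  r := rfl
  h _ := pl_pl' (tf X f) _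
  η := pl_pl' (tf X f) _
  H _ := pl_pl' (tf X f) _
  lam _ _ := rfl

omit [Fintype J] in
theorem kd_flip (j : J) (o : Bool) : (!(τ.kd j == !o)) = (τ.kd j == o) := by
  cases τ.kd j <;> cases o <;> rfl

/-- the same wall seen from the other side -/
def rev : Wd g u R₀ n τ (Lv.rev e) (!o) where
  l m := 1 - ω.r m
  r m := 1 - ω.l m
  a := 1 - ω.b
  b := 1 - ω.a
  u0 := ω.u0
  big := ω.big
  ua := by linarith [ω.bu]
  al := by linarith [ω.rb]
  rb := by linarith [ω.al]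
  bu := by linarith [ω.ua]
  win := ω.win.rev (g.E.s_rev e)
  h := ω.h
  sc_lt := ω.sc_lt
  mem j := by rw [Bs_flip (g.E.s_rev e), kd_flip]; exact ω.mem j
  van j m hm := by rw [As_flip (g.E.s_rev e), kd_flip]; exact ω.van j m hm
  span c m hm q hq := by
    rw [Bs_flip (g.E.s_rev e)] at hq ⊢
    obtain ⟨x, h1, h2⟩ := ω.span (!c) m hm q hq
    exact ⟨x, fun j hj => ⟨by rw [← Bool.not_inj_iff, kd_flip, (h1 j hj).1], (h1 j hj).2⟩, h2⟩
  η := ω.η
  hw := ω.hw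
  bz := by
    have := ω.bz
    rw [me_rev]
    cases o
    · simpa using this
    · simpa using this
  H := ω.H
  lam := ω.lam
  E := ω.E
  nf := by
    have := ω.nf
    simp only [Bs_flip (g.E.s_rev e), kd_flip]
    rwa [show zs (g.E.s (Lv.rev e)) (fun m => 1 - ω.r m) (fun m => 1 - ω.l m) n = _ from
      funext (zs_flip (g.E.s_rev e) n)]

theorem rev_lm : ω.rev.lm = ω.lm := funext fun m => by cases o <;> simp [lm, rev]

theorem rev_rm : ω.rev.rm = ω.rm := funext fun m => by cases o <;> simp [rm, rev]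

theorem Rel.rev {f : F} {ω : Wd g u R₀ n τ e o} {ω' : Wd g u R₀ n τ e' o'} (h : Rel f ω ω') :
    Rel f ω ω'.rev where
  ed := h.ed.trans (me_rev _ _).symm
  l := ω'.rev_lm.trans h.l
  r := ω'.rev_rm.trans h.r
  h := h.h
  η := h.η
  H := h.H
  lam := h.lam

/-- **every translate of the wall, from either side, carries the data** -/
theorem exists_rel (f : F) (h : f.1 • me e o = me e' o') :
    ∃ ω' : Wd g u R₀ n τ e' o', Rel f ω ω' := by
  rw [me_smul] at h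
  obtain ⟨rfl, rfl⟩ | ⟨rfl, rfl⟩ := me_eq h
  exacts [⟨_, ω.rel_map f⟩, ⟨_, (ω.rel_map f).rev⟩]

end Wd


end Crest.Agent.N255.Ma

end
namespace Crest.Agent.N255.Ma.Sys
end Crest.Agent.N255.Ma.Sys
end

-- ▼ part N255/Tr/All

/-!
# Row 255 (helper89): transport of walls, `TrS`
-/

set_option autoImplicit false

namespace Crest.Agent.N255.Ma

/-- **walls are transported along the group** -/
theorem trS_holds : TrS := by
  intro F S _ X _ _ _ _ g u R₀ n J _ τ e e' o o' ω f h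
  obtain ⟨ω', r⟩ := ω.exists_rel f h
  exact ⟨ω', r, fun R σ hs => ⟨_, r.sig hs, r.W hs _⟩⟩

end Crest.Agent.N255.Ma
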